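import Vale.Agent.P221X.Base.Spec

/-!
# P221X, rows MU and F2
-/

set_option linter.all false

noncomputable section

namespace Vale.Agent.P221X.MU

open PowerSeries Finset WithZero

variable {p : ℕ} {F : Type} [Field F] {D : GD p F} {R : Type} [Ring R] [Algebra F R]

/-! ### the valuation -/

/-- the valuation of `K` -/
def vK : Valuation (KK F) ℤᵐ⁰ := (Valued.v : Valuation (LaurentSeries F) ℤᵐ⁰)

theorem ge_iff {n : ℤ} {f : KK F} : f ∈ KK.ge n ↔ vK f ≤ exp (-n) :=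
  (LaurentSeries.valuation_le_iff_coeff_lt_eq_zero F).symm

theorem vK_uz (n : ℤ) : vK (KK.uz n : KK F) = exp (-n) := LaurentSeries.valuation_single_zpow F n

theorem ge_one_iff {f : KK F} : f ∈ KK.ge 1 ↔ vK f < 1 := by
  rw [ge_iff]
  rcases eq_or_ne (vK f) 0 with h | h
  · simp [h]
  · rw [← exp_log h, ← exp_zero, exp_le_exp, exp_lt_exp]
    omega

theorem uz_eq (n : ℤ) : (KK.uz n : KK F) = KK.uz 1 ^ n := RatFunc.single_zpow n

theorem uz_ne (n : ℤ) : (KK.uz n : KK F) ≠ 0 := fun h =>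
  exp_ne_zero (by rw [← vK_uz (F := F), h, map_zero])

theorem zpow_sub_one {η : KK F} (h : η - 1 ∈ KK.ge 1) (c : ℤ) : η ^ c - 1 ∈ KK.ge 1 := by
  rw [ge_one_iff] at h ⊢
  have h1 : vK η = 1 := by simpa using vK.map_eq_of_sub_lt (x := 1) (by simpa using h)
  have e : ∀ i : ℤ, vK (η ^ (i + 1) - 1) < 1 ↔ vK (η ^ i - 1) < 1 := fun i => by
    rw [zpow_add_one₀ fun e => by simp [e] at h1,
      show η ^ i * η - 1 = η * (η ^ i - 1) + (η - 1) by ring, ← one_mul (vK (η ^ i - 1)), ← h1,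
      ← map_mul, h1]
    exact ⟨fun H => by simpa using vK.map_sub_lt H h, fun H => vK.map_add_lt H h⟩
  induction c using Int.induction_on with
  | zero => simp
  | succ n ih => exact (e _).2 ih
  | pred n ih => exact (e _).1 (by simpa using ih)

theorem pow_mem_ge {n : ℤ} {f : KK F} (h : f ∈ KK.ge n) (M : ℕ) : f ^ M ∈ KK.ge (M * n) := by
  induction M with
  | zero => simpa using KK.uz_mem_ge (F := F) 0
  | succ M ih => simpa [pow_succ, add_mul] using KK.mul_mem_ge ih h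

theorem ex_eta (a : D.G) : ∃ η : KK F, η - 1 ∈ KK.ge 1 ∧
    ∀ n, D.actK a (KK.uz n) = KK.uz n * η ^ n := by
  obtain ⟨f, hf⟩ := D.dep_one a
  refine ⟨1 + KK.uz 1 * algebraMap _ _ f, ?_, fun n => ?_⟩
  · simpa using KK.mul_mem_ge (KK.uz_mem_ge 1) (KK.algebraMap_mem_ge f)
  · rw [uz_eq n, map_zpow₀, ← mul_zpow, ← KK.algebraMap_X, D.actK_alg, sub_eq_iff_eq_add.1 hf]
    simp only [map_add, map_mul, map_pow]
    congr 1
    ring

/-! ### averaging -/

theorem rot_pow_cf (i : ℕ) (z : KK F) (n : ℤ) :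
    KK.cf n ((D.rotK ^ i) z) = (D.ζ ^ n) ^ i * KK.cf n z := by
  induction i with
  | zero => simp
  | succ i ih => rw [pow_succ', AlgEquiv.mul_apply, D.rotK_cf, ih, pow_succ', mul_assoc]

theorem prj_eq [CharP F p] (z : KK F) :
    KK.prj (p + 1) z = ∑ i ∈ range (p + 1), (D.rotK ^ i) z := KK.ext fun n => by
  rw [map_sum, KK.cf_prj]
  simp only [rot_pow_cf, ← sum_mul]
  split_ifs with h
  · simp [(D.ζ_prim.zpow_eq_one_iff_dvd n).2 h]
  · have h1 : D.ζ ^ n ≠ 1 := fun e => h ((D.ζ_prim.zpow_eq_one_iff_dvd n).1 e)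
    rw [geom_sum_eq h1, ← zpow_natCast, ← zpow_mul,
      (D.ζ_prim.zpow_eq_one_iff_dvd _).2 (Dvd.intro_left _ rfl), sub_self, zero_div, zero_mul]

theorem rot_of_inv {z : KK F} (hz : z ∈ KK.inv (p + 1)) (i : ℕ) : (D.rotK ^ i) z = z :=
  KK.ext fun n => by
    rw [rot_pow_cf]
    by_cases h : ((p + 1 : ℕ) : ℤ) ∣ n
    · rw [(D.ζ_prim.zpow_eq_one_iff_dvd n).2 h, one_pow, one_mul]
    · rw [hz n h, mul_zero]

variable (S : RD D R)

theorem op_mu_pow (i : ℕ) (r : R) (z : KK F) :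
    S.op ((S.mu ^ i) r) ((D.rotK ^ i) z) = (D.rotK ^ i) (S.op r z) := by
  induction i with
  | zero => simp
  | succ i ih => simp only [pow_succ', AlgEquiv.mul_apply, S.op_mu, ih]

theorem mu_pow_fix {r : R} (h : S.mu r = r) (i : ℕ) : (S.mu ^ i) r = r := by
  induction i with
  | zero => simp
  | succ i ih => rw [pow_succ', AlgEquiv.mul_apply, ih, h]

theorem mu_u : S.mu (S.sc X) = D.ζ • S.sc X := by
  rw [S.mu_sc, ← map_smul]
  congr 1
  ext n
  rw [D.rot_coeff, coeff_smul, coeff_X]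
  split_ifs with h <;> simp [h]

theorem mu_pow_u (i : ℕ) : (S.mu ^ i) (S.sc X) = D.ζ ^ i • S.sc X := by
  induction i with
  | zero => simp
  | succ i ih => rw [pow_succ', AlgEquiv.mul_apply, ih, map_smul, mu_u, smul_smul, pow_succ]

theorem mu_sum (r : R) :
    S.mu (∑ i ∈ range (p + 1), (S.mu ^ i) r) = ∑ i ∈ range (p + 1), (S.mu ^ i) r := by
  have h := sum_range_succ' (fun i => (S.mu ^ i) r) (p + 1)
  rw [sum_range_succ _ (p + 1), S.mu_pow, pow_zero, AlgEquiv.one_apply, add_left_inj] at h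
  rw [map_sum]
  simpa only [pow_succ', AlgEquiv.mul_apply] using h.symm

theorem fil_of_u {r : R} {w : ℕ} (h : S.sc X * r ∈ S.fil (4 + w)) : r ∈ S.fil w := by
  induction w with
  | zero => exact S.fil_zero r
  | succ w ih =>
    have h1 := ih (S.anti (by omega) h)
    have h2 := (S.sym_eq_zero (S.mul_mem S.u_mem h1)).2 h
    rw [S.sym_mul S.u_mem h1, S.u_sym, mul_eq_zero] at h2
    exact (S.sym_eq_zero h1).1 (h2.resolve_left (MvPolynomial.X_ne_zero _))

theorem op_prj [CharP F p] {r : R} (h : S.mu r = r) (z : KK F) :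
    S.op r (KK.prj (p + 1) z) = KK.prj (p + 1) (S.op r z) := by
  rw [prj_eq (D := D), prj_eq (D := D), map_sum]
  exact sum_congr rfl fun i _ => by rw [← op_mu_pow, mu_pow_fix S h]

/-- Row MU -/
theorem rowMU [CharP F p] : RowMU S where
  prj _ := op_prj S
  avg r M := by
    refine ⟨_, ∑ i ∈ range (p + 1), (D.ζ ^ i) ^ M • (S.mu ^ i) r, mu_sum S (S.sc X ^ M * r), ?_,
      fun z hz => ?_⟩
    · simp only [mul_sum, map_mul, map_pow, mu_pow_u, smul_pow, smul_mul_assoc, mul_smul_comm]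
    · rw [prj_eq (D := D), map_sum, LinearMap.sum_apply]
      exact sum_congr rfl fun i _ => by rw [← op_mu_pow, rot_of_inv hz]
  lim s h1 h2 := by
    obtain ⟨a, ha⟩ := S.complete s h2
    refine ⟨a, sub_eq_zero.1 (S.sep _ fun n => ?_), ha⟩
    have := sub_mem (S.mu_fil (ha n)) (ha n)
    rwa [map_sub, h1, sub_sub_sub_cancel_right] at this
  closed a h := by
    choose r hr using h
    obtain ⟨b, hb⟩ := S.complete (fun n => r (4 + n)) fun n => fil_of_u S (by
      have := sub_mem (hr (4 + n)) (S.anti (Nat.le_succ _) (hr (4 + (n + 1))))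
      rwa [sub_sub_sub_cancel_left, ← mul_sub] at this)
    refine ⟨b, sub_eq_zero.1 (S.sep _ fun n => S.anti (Nat.le_add_left n 4) ?_)⟩
    have := sub_mem (hr (4 + n)) (S.mul_mem S.u_mem (hb n))
    rwa [mul_sub, sub_sub_sub_cancel_right] at this

/-! ### gains -/

theorem gain0 (r : R) {m : ℤ} {z : KK F} (hz : z ∈ KK.ge m) : S.op r z ∈ KK.ge m := by
  simpa using S.gain (n := 0) (S.fil_zero r) hz

theorem upow (r : R) (M : ℕ) : Gain (S.op (S.sc X ^ M * r)) M := fun m z hz => by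
  rw [map_mul, Module.End.mul_apply, ← map_pow, S.op_sc, map_pow, KK.algebraMap_X, add_comm]
  simpa using KK.mul_mem_ge (pow_mem_ge (KK.uz_mem_ge 1) M) (gain0 S r hz)

include S in
theorem gain1 (a : D.G) {m : ℤ} {z : KK F} (hz : z ∈ KK.ge m) :
    D.actK a z - z ∈ KK.ge (m + 1) := by
  obtain ⟨η, h1, h2⟩ := ex_eta a
  have h3 : z - KK.cf m z • KK.uz m ∈ KK.ge (m + 1) := fun n hn => by
    rw [map_sub, map_smul, KK.cf_uz]
    split_ifs with h
    · simp [h]
    · simp [hz n (by omega)]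
  have h4 := gain0 S (S.gr a) h3
  have h5 := Submodule.smul_mem _ (KK.cf m z) (KK.mul_mem_ge (KK.uz_mem_ge m) (zpow_sub_one h1 m))
  rw [S.op_gr, map_sub, map_smul, h2] at h4
  convert add_mem (sub_mem h4 h3) h5 using 1
  rw [mul_sub, smul_sub, mul_one]
  abel

theorem ge_of_inv {k : ℤ} {z : KK F} (hz : z ∈ KK.inv (p + 1))
    (h : z ∈ KK.ge (-((p + 1 : ℕ) : ℤ) * k + 1)) : z ∈ Ox p (k - 1) := fun n hn => by
  by_cases h1 : ((p + 1 : ℕ) : ℤ) ∣ n
  · obtain ⟨c, rfl⟩ := h1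
    have h2 : c < 1 - k := lt_of_mul_lt_mul_left (a := ((p + 1 : ℕ) : ℤ)) (by linarith)
      (by positivity)
    refine h _ ?_
    nlinarith [mul_le_mul_of_nonneg_left (show c ≤ -k by omega)
      (show (0 : ℤ) ≤ ((p + 1 : ℕ) : ℤ) by positivity)]
  · exact hz n h1

theorem comm [Fact p.Prime] [CharP F p] (r : R) (c : ℤ) (e : ℕ) (m : ℤ) (z : KK F)
    (hz : z ∈ KK.ge m) : S.op r (KK.uz (c * p ^ e) * z) - KK.uz (c * p ^ e) * S.op r z ∈
      KK.ge (m + c * p ^ e + p ^ e) := by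
  haveI : CharP (KK F) p := charP_of_injective_algebraMap (algebraMap F (KK F)).injective p
  let W : AddSubmonoid R :=
    { carrier := {r | S.op r (KK.uz (c * p ^ e) * z) - KK.uz (c * p ^ e) * S.op r z ∈
        KK.ge (m + c * p ^ e + p ^ e)}
      add_mem' := fun h h' => by
        convert (KK.ge _).add_mem h h' using 1
        simp only [Set.mem_setOf_eq, map_add, LinearMap.add_apply, mul_add, add_sub_add_comm]
      zero_mem' := by simp }
  obtain ⟨x, hx⟩ := S.dense r (4 * p ^ e)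
  change r ∈ W
  rw [← sub_add_cancel r (x.sum fun a f => S.sc f * S.gr a)]
  refine W.add_mem ((KK.ge _).sub_mem ?_ ?_) (W.sum_mem fun a _ => ?_)
  · simpa [add_comm] using S.gain hx (KK.mul_mem_ge (KK.uz_mem_ge (c * p ^ e)) hz)
  · simpa [add_comm, add_left_comm, add_assoc] using
      KK.mul_mem_ge (KK.uz_mem_ge (c * p ^ e)) (S.gain hx hz)
  · obtain ⟨η, h1, h2⟩ := ex_eta a
    have h3 := KK.mul_mem_ge (KK.mul_mem_ge (KK.mul_mem_ge (KK.algebraMap_mem_ge (x a))
      (gain0 S (S.gr a) hz)) (KK.uz_mem_ge (c * p ^ e))) (pow_mem_ge (zpow_sub_one h1 c) (p ^ e))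
    change _ ∈ KK.ge _
    simp only [map_mul, Module.End.mul_apply, S.op_sc, S.op_gr, h2] at h3 ⊢
    convert h3 using 1
    · simp
    · rw [sub_pow_char_pow, one_pow, ← zpow_natCast (η ^ c), ← zpow_mul]
      push_cast
      ring

/-- Row F2 -/
theorem rowF2 [Fact p.Prime] [CharP F p] : RowF2 S where
  comm := comm S
  upow := upow S
  theta θ h k z hz hk := by
    have h1 : S.op θ z ∈ KK.inv (p + 1) := by
      rw [← KK.prj_of_mem hz, op_prj S h.mu]
      exact KK.prj_mem_inv _ _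
    refine ⟨h1, ge_of_inv h1 ?_⟩
    obtain ⟨r, rfl⟩ := h.modu
    have h2 := upow S r 1 _ z hk
    rw [pow_one] at h2
    rw [map_add, map_sub, map_one, LinearMap.add_apply, LinearMap.sub_apply, S.op_gr]
    exact add_mem (gain1 S _ hk) h2

end Vale.Agent.P221X.MU
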